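import Mathlib

/-!
Elementary geometry of a smooth strictly convex table in arclength, the billiard step,
and the perimeter calibration attached to an invariant curve of graph type.
-/

open Complex Set Filter Topology

namespace Vale.Agent.P097

/-- `Step γ θ L s δ s' δ'`: the billiard map sends `(s, δ)` to `(s', δ')`, in lifted arclength. -/
def Step (γ : ℝ → ℂ) (θ : ℝ → ℝ) (L s δ s' δ' : ℝ) : Prop :=
  s < s' ∧ s' < s + L ∧ δ ∈ Ioo 0 Real.pi ∧ δ' ∈ Ioo 0 Real.pi ∧
    γ s' - γ s = (‖γ s' - γ s‖ : ℂ) * exp ((θ s + δ : ℝ) * I) ∧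
    γ s' - γ s = (‖γ s' - γ s‖ : ℂ) * exp ((θ s' - δ' : ℝ) * I)

/-- A rotational invariant curve of the billiard map, given as the graph of a function. -/
def InvariantGraph (γ : ℝ → ℂ) (θ : ℝ → ℝ) (L : ℝ) (f : ℝ → ℝ) : Prop :=
  Continuous f ∧ (∀ s, f (s + L) = f s) ∧ (∀ s, f s ∈ Ioo 0 Real.pi) ∧
    ∀ s δ s' δ', Step γ θ L s δ s' δ' → (δ = f s ↔ δ' = f s')

variable {γ : ℝ → ℂ} {θ : ℝ → ℝ} {L : ℝ}

/-- The standing hypotheses on a table. -/
def Table (γ : ℝ → ℂ) (θ : ℝ → ℝ) (L : ℝ) : Prop :=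
  0 < L ∧ (∀ s, γ (s + L) = γ s) ∧ (∀ s, θ (s + L) = θ s + 2 * Real.pi) ∧
    (∀ s, HasDerivAt γ (exp ((θ s : ℝ) * I)) s) ∧ Differentiable ℝ θ ∧ ∀ s, 0 < deriv θ s

theorem Table.strictMono (h : Table γ θ L) : StrictMono θ :=
  strictMono_of_deriv_pos h.2.2.2.2.2

theorem exp_neg_mul (a b : ℝ) :
    exp ((a : ℝ) * I) * exp (-((b : ℝ) * I)) = exp (((a - b : ℝ) : ℂ) * I) := by
  rw [← exp_add]; push_cast; ring_nf

theorem Table.chord_im_pos (h : Table γ θ L) {s y : ℝ} (h1 : s < y) (h2 : y < s + L) :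
    0 < ((γ y - γ s) * exp (-((θ s : ℝ) * I))).im := by
  obtain ⟨hL, hp, hθ, hd, hdiff, _⟩ := h
  have hm : StrictMono θ := Table.strictMono ⟨hL, hp, hθ, hd, hdiff, ‹_›⟩
  set g : ℝ → ℝ := fun x => ((γ x - γ s) * exp (-((θ s : ℝ) * I))).im with hg
  have hder : ∀ x, HasDerivAt g (Real.sin (θ x - θ s)) x := by
    intro x
    have := imCLM.hasFDerivAt.comp_hasDerivAt x
      (((hd x).sub_const (γ s)).mul_const (exp (-((θ s : ℝ) * I))))
    rw [exp_neg_mul] at this
    simp only [imCLM_apply, exp_ofReal_mul_I_im, Function.comp_def] at this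
    exact this
  have hcont : Continuous g := continuous_iff_continuousAt.2 fun x => (hder x).continuousAt
  have hpi := Real.pi_pos
  obtain ⟨m, hm1, hm2⟩ := intermediate_value_Icc (show s ≤ s + L by linarith)
    hdiff.continuous.continuousOn (show θ s + Real.pi ∈ Icc (θ s) (θ (s + L)) by
      constructor <;> [linarith; (rw [hθ]; linarith)])
  have g0 : g s = 0 := by simp [hg]
  have g1 : g (s + L) = 0 := by simp [hg, hp]
  rcases le_or_gt y m with hy | hy
  · have : StrictMonoOn g (Icc s m) := by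
      refine strictMonoOn_of_deriv_pos (convex_Icc _ _) hcont.continuousOn fun x hx => ?_
      rw [interior_Icc] at hx
      rw [(hder x).deriv]
      exact Real.sin_pos_of_pos_of_lt_pi (by linarith [hm hx.1]) (by linarith [hm hx.2])
    have := this (left_mem_Icc.2 hm1.1) ⟨h1.le, hy⟩ h1
    linarith
  · have : StrictAntiOn g (Icc m (s + L)) := by
      refine strictAntiOn_of_deriv_neg (convex_Icc _ _) hcont.continuousOn fun x hx => ?_
      rw [interior_Icc] at hx
      rw [(hder x).deriv]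
      have a1 := hm hx.1
      have a2 := hm hx.2
      rw [hθ] at a2
      have : Real.sin (θ x - θ s - Real.pi) > 0 :=
        Real.sin_pos_of_pos_of_lt_pi (by linarith) (by linarith)
      rw [Real.sin_sub_pi] at this
      linarith
    have := this ⟨hy.le, h2.le⟩ (right_mem_Icc.2 hm1.2) h2
    linarith

theorem Table.chord_ne (h : Table γ θ L) {s y : ℝ} (h1 : s < y) (h2 : y < s + L) :
    γ y - γ s ≠ 0 := by
  intro e
  have := h.chord_im_pos h1 h2
  simp [e] at this

theorem Table.chord_im_neg (h : Table γ θ L) {s y : ℝ} (h1 : s < y) (h2 : y < s + L) :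
    ((γ y - γ s) * exp (-((θ y : ℝ) * I))).im < 0 := by
  have := h.chord_im_pos (s := y) (y := s + L) h2 (by linarith)
  rw [h.2.1 s, ← neg_sub (γ y) (γ s), neg_mul, neg_im] at this
  linarith

theorem arg_mem {z : ℂ} (hz : 0 < z.im) : z.arg ∈ Ioo 0 Real.pi := by
  have h0 : 0 ≤ z.arg := arg_nonneg_iff.2 hz.le
  refine ⟨lt_of_le_of_ne h0 fun e => ?_, lt_of_le_of_ne (arg_le_pi z) fun e => ?_⟩
  · exact (arg_eq_zero_iff.1 e.symm).2 ▸ hz |>.false
  · exact (arg_eq_pi_iff.1 e).2 ▸ hz |>.false

theorem Table.exists_step (h : Table γ θ L) {s y : ℝ} (h1 : s < y) (h2 : y < s + L) :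
    ∃ α β, Step γ θ L s α y β := by
  set c := γ y - γ s
  set w := c * exp (-((θ s : ℝ) * I))
  set v := starRingEnd ℂ (c * exp (-((θ y : ℝ) * I)))
  have hv : 0 < v.im := by
    simp only [v, conj_im]; linarith [h.chord_im_neg h1 h2]
  refine ⟨w.arg, v.arg, h1, h2, arg_mem (h.chord_im_pos h1 h2), arg_mem hv, ?_, ?_⟩
  · have e := norm_mul_exp_arg_mul_I w
    have hn : ‖w‖ = ‖c‖ := by
      simp [w, norm_exp]
    rw [hn] at e
    change c = _
    push_cast
    rw [add_mul, exp_add, mul_left_comm, e]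
    simp only [w]
    rw [mul_left_comm, ← exp_add]; simp
  · have e := congrArg (starRingEnd ℂ) (norm_mul_exp_arg_mul_I v)
    have hn : ‖v‖ = ‖c‖ := by
      simp [v, norm_exp]
    rw [hn, map_mul, ← exp_conj, map_mul, conj_ofReal, conj_ofReal, conj_I] at e
    change c = _
    have e' : (‖c‖ : ℂ) * exp ((v.arg : ℂ) * -I) = c * exp (-((θ y : ℝ) * I)) := by
      rw [e]; simp [v]
    push_cast
    rw [sub_mul, show (θ y : ℂ) * I - (v.arg : ℂ) * I = (θ y : ℂ) * I + (v.arg : ℂ) * -I by ring,
      exp_add, mul_left_comm, e', mul_left_comm, ← exp_add]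
    simp

theorem Table.step_unique (h : Table γ θ L) {s δ y δ' z δ'' : ℝ}
    (hy : Step γ θ L s δ y δ') (hz : Step γ θ L s δ z δ'') : y = z := by
  wlog hyz : y ≤ z generalizing y z δ' δ''
  · exact (this hz hy (le_of_not_ge hyz)).symm
  rcases eq_or_lt_of_le hyz with e | hlt
  · exact e
  exfalso
  obtain ⟨a1, a2, -, -, ey, -⟩ := hy
  obtain ⟨b1, b2, -, -, ez, -⟩ := hz
  set e := exp ((θ s + δ : ℝ) * I)
  set r := ‖γ y - γ s‖
  set R := ‖γ z - γ s‖
  have hr : 0 < r := norm_pos_iff.2 (h.chord_ne a1 a2)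
  have hR : 0 < R := norm_pos_iff.2 (h.chord_ne b1 b2)
  have p1 := h.chord_im_pos (s := y) (y := z) hlt (by linarith)
  have p2 := h.chord_im_pos (s := y) (y := s + L) a2 (by linarith)
  have p3 := h.chord_im_pos (s := z) (y := y + L) (by linarith) (by linarith)
  have p4 := h.chord_im_pos (s := z) (y := s + L) b2 (by linarith)
  rw [h.2.1 s] at p2 p4
  rw [h.2.1 y] at p3
  rw [show γ z - γ y = ((R - r : ℝ) : ℂ) * e by push_cast; linear_combination ez - ey, mul_assoc,
    im_ofReal_mul] at p1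
  rw [show γ s - γ y = ((-r : ℝ) : ℂ) * e by push_cast; linear_combination -ey, mul_assoc,
    im_ofReal_mul] at p2
  rw [show γ y - γ z = ((r - R : ℝ) : ℂ) * e by push_cast; linear_combination ey - ez, mul_assoc,
    im_ofReal_mul] at p3
  rw [show γ s - γ z = ((-R : ℝ) : ℂ) * e by push_cast; linear_combination -ez, mul_assoc,
    im_ofReal_mul] at p4
  have q2 : (e * exp (-((θ y : ℝ) * I))).im < 0 := by nlinarith
  have q4 : (e * exp (-((θ z : ℝ) * I))).im < 0 := by nlinarith
  nlinarith

theorem hasDerivAt_norm_chord {c : ℝ → ℂ} {c' : ℂ} {x : ℝ} (hc : HasDerivAt c c' x)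
    (hne : c x ≠ 0) :
    HasDerivAt (fun t => ‖c t‖) ((starRingEnd ℂ (c x) * c').re / ‖c x‖) x := by
  have h2 := hc.norm_sq.sqrt (by positivity)
  have hi : inner ℝ (c x) c' = (starRingEnd ℂ (c x) * c').re := by
    simp [Complex.inner, mul_comm]
  simp only [Real.sqrt_sq (norm_nonneg _), hi] at h2
  convert h2 using 1
  field_simp

theorem conj_exp_mul (n : ℝ) (φ ψ : ℝ) :
    (starRingEnd ℂ ((n : ℂ) * exp ((φ : ℝ) * I)) * exp ((ψ : ℝ) * I)).re
      = n * Real.cos (ψ - φ) := by
  rw [map_mul, conj_ofReal, ← exp_conj, map_mul, conj_ofReal, conj_I, mul_assoc, ← exp_add,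
    re_ofReal_mul, show (φ : ℂ) * -I + (ψ : ℂ) * I = ((ψ - φ : ℝ) : ℂ) * I by push_cast; ring,
    exp_ofReal_mul_I_re]

theorem Table.chord_deriv_end (h : Table γ θ L) {s y α β : ℝ} (hst : Step γ θ L s α y β) :
    HasDerivAt (fun t => ‖γ t - γ s‖) (Real.cos β) y := by
  obtain ⟨h1, h2, -, -, -, e⟩ := hst
  have hne := h.chord_ne h1 h2
  have hn : (0 : ℝ) < ‖γ y - γ s‖ := norm_pos_iff.2 hne
  have := hasDerivAt_norm_chord ((h.2.2.2.1 y).sub_const (γ s)) hne
  convert this using 1
  rw [eq_div_iff hn.ne']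
  conv_rhs => rw [e]
  rw [conj_exp_mul, show θ y - (θ y - β) = β by ring, mul_comm]

theorem Table.chord_deriv_start (h : Table γ θ L) {s y α β : ℝ} (hst : Step γ θ L s α y β) :
    HasDerivAt (fun t => ‖γ y - γ t‖) (-Real.cos α) s := by
  obtain ⟨h1, h2, -, -, e, -⟩ := hst
  have hne := h.chord_ne h1 h2
  have hn : (0 : ℝ) < ‖γ y - γ s‖ := norm_pos_iff.2 hne
  have := hasDerivAt_norm_chord ((h.2.2.2.1 s).const_sub (γ y)) hne
  convert this using 1
  rw [eq_div_iff hn.ne', mul_neg, neg_re]
  conv_rhs => rw [e]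
  rw [conj_exp_mul, show θ s - (θ s + α) = -α by ring, Real.cos_neg]
  ring

/-- An invariant graph calibrates chord lengths: orbit segments on it are maximal. -/
theorem Table.calibration (h : Table γ θ L) {f : ℝ → ℝ} (hf : InvariantGraph γ θ L f) :
    ∃ (u : ℝ → ℝ) (c A : ℝ), (∀ x, u (x + L) = u x + A) ∧
      (∀ s y, s ≤ y → y ≤ s + L → ‖γ y - γ s‖ ≤ u y - u s + c) ∧
      (∀ s y β, Step γ θ L s (f s) y β → ‖γ y - γ s‖ = u y - u s + c) := by
  obtain ⟨fc, fp, fr, finv⟩ := hf
  have hL := h.1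
  have hγ : Continuous γ := continuous_iff_continuousAt.2 fun x => (h.2.2.2.1 x).continuousAt
  let u : ℝ → ℝ := fun x => ∫ t in (0 : ℝ)..x, Real.cos (f t)
  have hu : ∀ x, HasDerivAt u (Real.cos (f x)) x := fun x =>
    (Real.continuous_cos.comp fc).integral_hasStrictDerivAt 0 x |>.hasDerivAt
  have huc : Continuous u := continuous_iff_continuousAt.2 fun x => (hu x).continuousAt
  have hA : ∀ x, u (x + L) = u x + (u L - u 0) := by
    have hd : ∀ x, HasDerivAt (fun x => u (x + L) - u x) 0 x := fun x => by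
      have := ((hu (x + L)).comp_add_const x L).sub (hu x)
      rwa [fp, sub_self] at this
    intro x
    have := is_const_of_deriv_eq_zero (fun x => (hd x).differentiableAt)
      (fun x => (hd x).deriv) x 0
    simp only [zero_add] at this
    linarith
  let φ : ℝ → ℝ → ℝ := fun s t => ‖γ (s + t) - γ s‖ - (u (s + t) - u s)
  let M : ℝ → ℝ := fun s => sSup (φ s '' Icc 0 L)
  have hφ : Continuous (Function.uncurry φ) := by
    simp only [φ, Function.uncurry_def]; fun_prop
  have hM : Continuous M := isCompact_Icc.continuous_sSup hφ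
  have hφs : ∀ s, Continuous (φ s) := fun s => by simp only [φ]; fun_prop
  have hle : ∀ s t, t ∈ Icc (0 : ℝ) L → φ s t ≤ M s := fun s t ht =>
    le_csSup (isCompact_Icc.image (hφs s)).bddAbove (mem_image_of_mem _ ht)
  -- every maximiser is interior and is an orbit step on the graph
  have hmax : ∀ s, ∃ y β, Step γ θ L s (f s) y β ∧ φ s (y - s) = M s := by
    intro s
    obtain ⟨t, ht, htm⟩ := isCompact_Icc.exists_isMaxOn (nonempty_Icc.2 hL.le) (hφs s).continuousOn
    have htM : φ s t = M s := le_antisymm (hle s t ht)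
      (csSup_le ((nonempty_Icc.2 hL.le).image _) (by rintro _ ⟨x, hx, rfl⟩; exact htm hx))
    have hcos1 : Real.cos (f s) < 1 := by
      rw [← Real.cos_zero]
      exact Real.strictAntiOn_cos (left_mem_Icc.2 Real.pi_pos.le) ⟨(fr s).1.le, (fr s).2.le⟩ (fr s).1
    have hcos2 : -1 < Real.cos (f s) := by
      rw [← Real.cos_pi]
      exact Real.strictAntiOn_cos ⟨(fr s).1.le, (fr s).2.le⟩ (right_mem_Icc.2 Real.pi_pos.le) (fr s).2
    have hdγ := h.2.2.2.1 s
    -- the left end is not maximal
    have hnl : t ≠ 0 := by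
      rintro rfl
      have s1 : Tendsto (fun x => ‖slope γ s x‖) (𝓝[≠] s) (𝓝 1) := by
        have := (hasDerivAt_iff_tendsto_slope.1 hdγ).norm
        rwa [norm_exp_ofReal_mul_I] at this
      have s2 := hasDerivAt_iff_tendsto_slope.1 (hu s)
      have ev : ∀ᶠ x in 𝓝[>] s, 0 < ‖slope γ s x‖ - slope u s x :=
        ((s1.sub s2).mono_left (nhdsWithin_mono _ fun x hx => ne_of_gt hx)).eventually
          (eventually_gt_nhds (by linarith))
      obtain ⟨x, hx, hx1, hx2⟩ := (ev.and (Ioo_mem_nhdsGT (show s < s + L by linarith))).exists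
      have := htm (show x - s ∈ Icc 0 L from ⟨by linarith, by linarith⟩)
      simp only [mem_ofPred_eq, φ, add_sub_cancel, add_zero, sub_self, norm_zero] at this
      rw [slope_def_module, slope_def_field, norm_smul, norm_inv, Real.norm_of_nonneg
        (by linarith : (0:ℝ) ≤ x - s), inv_mul_eq_div, ← sub_div] at hx
      rw [lt_div_iff₀ (by linarith : (0:ℝ) < x - s), zero_mul] at hx
      linarith
    -- the right end is not maximal
    have hnr : t ≠ L := by
      rintro rfl
      have hd' := h.2.2.2.1 (s + t)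
      have s1 : Tendsto (fun x => ‖slope γ (s + t) x‖) (𝓝[≠] (s + t)) (𝓝 1) := by
        have := (hasDerivAt_iff_tendsto_slope.1 hd').norm
        rwa [norm_exp_ofReal_mul_I] at this
      have s2 := hasDerivAt_iff_tendsto_slope.1 (hu (s + t))
      rw [fp] at s2
      have ev : ∀ᶠ x in 𝓝[<] (s + t), 0 < ‖slope γ (s + t) x‖ + slope u (s + t) x :=
        ((s1.add s2).mono_left (nhdsWithin_mono _ fun x hx => ne_of_lt hx)).eventually
          (eventually_gt_nhds (by linarith))
      obtain ⟨x, hx, hx1, hx2⟩ := (ev.and (Ioo_mem_nhdsLT (show s < s + t by linarith))).exists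
      have := htm (show x - s ∈ Icc 0 t from ⟨by linarith, by linarith⟩)
      simp only [mem_ofPred_eq, φ, add_sub_cancel, h.2.1, sub_self, norm_zero] at this
      rw [slope_def_module, slope_def_field, norm_smul, norm_inv, Real.norm_of_nonpos
        (by linarith : x - (s + t) ≤ 0), h.2.1 s, inv_mul_eq_div, div_neg, ← neg_div,
        ← add_div] at hx
      rw [lt_div_iff_of_neg (by linarith : x - (s + t) < 0), zero_mul] at hx
      linarith
    have t0 : 0 < t := lt_of_le_of_ne ht.1 (Ne.symm hnl)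
    have t1 : t < L := lt_of_le_of_ne ht.2 hnr
    obtain ⟨α, β, hst⟩ := h.exists_step (show s < s + t by linarith) (show s + t < s + L by linarith)
    have hd1 : HasDerivAt (φ s) (Real.cos β - Real.cos (f (s + t))) t :=
      ((h.chord_deriv_end hst).comp_const_add s t).sub
        (((hu (s + t)).comp_const_add s t).sub_const (u s))
    have z := (htm.isLocalMax (Icc_mem_nhds t0 t1)).hasDerivAt_eq_zero hd1
    have hβ : β = f (s + t) := Real.injOn_cos ⟨hst.2.2.2.1.1.le, hst.2.2.2.1.2.le⟩
      ⟨(fr _).1.le, (fr _).2.le⟩ (sub_eq_zero.1 z)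
    have hα : α = f s := (finv _ _ _ _ hst).2 hβ
    exact ⟨s + t, β, hα ▸ hst, by simpa using htM⟩
  -- the maximum does not depend on the starting point
  have key : ∀ s r, 0 < r → ∀ᶠ x in 𝓝 s, M s - r * |x - s| ≤ M x := by
    intro s r hr
    obtain ⟨y, β, hst, he⟩ := hmax s
    have hd : HasDerivAt (fun x => ‖γ y - γ x‖ - (u y - u x)) 0 s := by
      have := (h.chord_deriv_start hst).sub ((hu s).const_sub (u y))
      rwa [sub_neg_eq_add, neg_add_cancel] at this
    have ev := hd.isLittleO.def hr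
    filter_upwards [ev, Iio_mem_nhds hst.1, Ioi_mem_nhds (show y - L < s by linarith [hst.2.1])]
      with x hx hx1 hx2
    rw [mem_Iio] at hx1
    rw [mem_Ioi] at hx2
    have := hle x (y - x) ⟨by linarith, by linarith⟩
    simp only [φ, add_sub_cancel] at this he
    simp only [smul_zero, sub_zero, Real.norm_eq_abs] at hx
    linarith [neg_abs_le (‖γ y - γ x‖ - (u y - u x) - (‖γ y - γ s‖ - (u y - u s)))]
  have mono : ∀ a b, a ≤ b → M a ≤ M b := by
    intro a b hab
    have := image_le_of_liminf_slope_right_le_deriv_boundary (f := fun x => -M x) (a := a) (b := b)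
      hM.neg.continuousOn (B := fun _ => -M a) (B' := fun _ => 0) le_rfl continuousOn_const
      (fun x _ => (hasDerivAt_const x _).hasDerivWithinAt)
      (fun x _ r hr => Eventually.frequently (by
        filter_upwards [nhdsWithin_le_nhds (key x (r / 2) (half_pos hr)),
          self_mem_nhdsWithin] with z hz hzx
        rw [mem_Ioi] at hzx
        rw [abs_of_pos (sub_pos.2 hzx)] at hz
        rw [slope_def_field, div_lt_iff₀ (sub_pos.2 hzx)]
        nlinarith [mul_pos hr (sub_pos.2 hzx)]))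
      (right_mem_Icc.2 hab)
    simpa using this
  have anti : ∀ a b, a ≤ b → M b ≤ M a := by
    intro a b hab
    have := image_le_of_liminf_slope_right_le_deriv_boundary (f := fun x => -M (-x))
      (a := -b) (b := -a)
      (hM.comp continuous_neg).neg.continuousOn (B := fun _ => -M b) (B' := fun _ => 0)
      (by simp) continuousOn_const
      (fun x _ => (hasDerivAt_const x _).hasDerivWithinAt)
      (fun x _ r hr => Eventually.frequently (by
        have hk := (continuous_neg.tendsto x).eventually (key (-x) (r / 2) (half_pos hr))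
        filter_upwards [nhdsWithin_le_nhds hk, self_mem_nhdsWithin] with z hz hzx
        rw [mem_Ioi] at hzx
        rw [show -z - -x = -(z - x) by ring, abs_neg, abs_of_pos (sub_pos.2 hzx)] at hz
        rw [slope_def_field, div_lt_iff₀ (sub_pos.2 hzx)]
        nlinarith [mul_pos hr (sub_pos.2 hzx)]))
      (right_mem_Icc.2 (neg_le_neg hab))
    simpa using this
  have hc : ∀ s, M s = M 0 := fun s => by
    rcases le_total 0 s with hs | hs
    · exact le_antisymm (anti _ _ hs) (mono _ _ hs)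
    · exact le_antisymm (mono _ _ hs) (anti _ _ hs)
  refine ⟨u, M 0, u L - u 0, hA, fun s y h1 h2 => ?_, fun s y β hst => ?_⟩
  · have := hle s (y - s) ⟨by linarith, by linarith⟩
    simp only [φ, add_sub_cancel, hc s] at this
    linarith
  · obtain ⟨y', β', hst', he⟩ := hmax s
    obtain rfl := h.step_unique hst hst'
    simp only [φ, add_sub_cancel, hc s] at he
    linarith

end Vale.Agent.P097
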