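import Vale.Agent.P097.Basic

/-! The unit disc carries invariant graphs through every point. -/

open Complex Set

namespace Vale.Agent.P097

theorem disc_graph {δ₀ : ℝ} (h0 : δ₀ ∈ Ioo 0 Real.pi) :
    InvariantGraph (fun s => exp ((s : ℝ) * I)) (fun s => s + Real.pi / 2) (2 * Real.pi)
      (fun _ => δ₀) := by
  refine ⟨continuous_const, fun _ => rfl, fun _ => h0, fun s δ s' δ' hst => ?_⟩
  obtain ⟨h1, h2, hd, hd', e1, e2⟩ := hst
  suffices δ = δ' by rw [this]
  have hpi := Real.pi_pos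
  set d := (s' - s) / 2
  have hd0 : 0 < Real.sin d :=
    Real.sin_pos_of_pos_of_lt_pi (by simp only [d]; linarith) (by simp only [d]; linarith)
  have key : exp ((s' : ℝ) * I) - exp ((s : ℝ) * I)
      = ((2 * Real.sin d : ℝ) : ℂ) * exp ((s + Real.pi / 2 + d : ℝ) * I) := by
    have q : exp ((s + Real.pi / 2 + d : ℝ) * I) = exp ((s + d : ℝ) * I) * I := by
      conv_rhs => arg 2; rw [← exp_pi_div_two_mul_I]
      rw [← exp_add]
      congr 1
      push_cast; ring
    have r1 : exp ((s' : ℝ) * I) = exp ((s + d : ℝ) * I) * exp ((d : ℂ) * I) := by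
      rw [← exp_add]; congr 1; simp only [d]; push_cast; ring
    have r2 : exp ((s : ℝ) * I) = exp ((s + d : ℝ) * I) * exp (-(d : ℂ) * I) := by
      rw [← exp_add]; congr 1; push_cast; ring
    rw [q, r1, r2, ofReal_mul, ofReal_sin, ofReal_ofNat, Complex.two_sin]
    linear_combination
      (exp ((s + d : ℝ) * I) * (exp ((d : ℂ) * I) - exp (-(d : ℂ) * I))) * I_mul_I
  have hn : ‖exp ((s' : ℝ) * I) - exp ((s : ℝ) * I)‖ = 2 * Real.sin d := by
    rw [key, norm_mul, norm_real, norm_exp_ofReal_mul_I, mul_one, Real.norm_of_nonneg]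
    linarith
  simp only [hn] at e1 e2
  have hc : ((2 * Real.sin d : ℝ) : ℂ) ≠ 0 := by
    rw [ne_eq, ofReal_eq_zero]; linarith
  rw [key] at e1 e2
  obtain ⟨m, hm⟩ := exp_eq_exp_iff_exists_int.1 (mul_left_cancel₀ hc e1)
  obtain ⟨n, hn⟩ := exp_eq_exp_iff_exists_int.1 (mul_left_cancel₀ hc e2)
  have hm' := congrArg Complex.im hm
  have hn' := congrArg Complex.im hn
  simp at hm' hn'
  have m0 : m = 0 := by
    have a1 : (m : ℝ) < 1 := by simp only [d] at hm'; nlinarith [hd.1, hd.2]
    have a2 : (-1 : ℝ) < m := by simp only [d] at hm'; nlinarith [hd.1, hd.2]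
    have b1 : m < 1 := by exact_mod_cast a1
    have b2 : -1 < m := by exact_mod_cast a2
    omega
  have n0 : n = 0 := by
    have a1 : (n : ℝ) < 1 := by simp only [d] at hn'; nlinarith [hd'.1, hd'.2]
    have a2 : (-1 : ℝ) < n := by simp only [d] at hn'; nlinarith [hd'.1, hd'.2]
    have b1 : n < 1 := by exact_mod_cast a1
    have b2 : -1 < n := by exact_mod_cast a2
    omega
  simp [m0] at hm'
  simp [n0] at hn'
  simp only [d] at hm' hn'
  linarith

end Vale.Agent.P097
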