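import Vale.Agent.P097.Basic

/-!
A table with k-fold rotational symmetry, with invariant graphs through the points of height
pi/k, is a disc.
-/

open Complex Set Filter Topology

namespace Vale.Agent.P097

variable {γ : ℝ → ℂ} {θ : ℝ → ℝ} {L : ℝ}

theorem Table.theta_symm (h : Table γ θ L) {k : ℕ} (hk : 2 ≤ k) {c₀ : ℂ}
    (hsym : ∀ s, γ (s + L / k) - c₀ = exp ((2 * Real.pi / k : ℝ) * I) * (γ s - c₀)) (s : ℝ) :
    θ (s + L / k) = θ s + 2 * Real.pi / k := by
  obtain ⟨hL, hp, hθ, hd, hdiff, _⟩ := h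
  have hpi := Real.pi_pos
  have hk0 : (k : ℝ) ≠ 0 := by positivity
  have e1 : ∀ x, exp ((θ (x + L / k) : ℝ) * I)
      = exp ((θ x + 2 * Real.pi / k : ℝ) * I) := by
    intro x
    have h1 := ((hd (x + L / k)).comp_add_const x (L / k)).sub_const c₀
    have h2 := ((hd x).sub_const c₀).const_mul (exp ((2 * Real.pi / k : ℝ) * I))
    rw [funext hsym] at h1
    rw [h1.unique h2, ← exp_add]
    push_cast; ring_nf
  have e2 : ∀ x, ∃ m : ℤ, θ (x + L / k) - θ x - 2 * Real.pi / k = m * (2 * Real.pi) := by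
    intro x
    obtain ⟨m, hm⟩ := exp_eq_exp_iff_exists_int.1 (e1 x)
    refine ⟨m, ?_⟩
    have := congrArg Complex.im hm
    simp at this
    linarith
  choose m hm using e2
  have mc : Continuous fun x => (m x : ℝ) := by
    have : (fun x => (m x : ℝ)) = fun x => (θ (x + L / k) - θ x - 2 * Real.pi / k) / (2 * Real.pi) := by
      funext x; rw [hm]; field_simp
    rw [this]
    have := hdiff.continuous
    fun_prop
  have mi : ∀ x, m x = m s := fun x =>
    PreconnectedSpace.constant inferInstance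
      ((Int.isClosedEmbedding_coe_real.isInducing.continuous_iff).2 mc)
  have sum : ∀ j : ℕ, θ (s + j * (L / k)) = θ s + j * (2 * Real.pi / k + m s * (2 * Real.pi)) := by
    intro j
    induction j with
    | zero => simp
    | succ j ih =>
      have := hm (s + j * (L / k))
      rw [mi, add_assoc] at this
      push_cast
      rw [add_one_mul, add_one_mul]
      linarith
  have := sum k
  rw [show (k : ℝ) * (L / k) = L by field_simp, hθ, mul_add,
    show (k : ℝ) * (2 * Real.pi / k) = 2 * Real.pi by field_simp] at this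
  have m0 : (m s : ℝ) = 0 := by
    have hz : (k : ℝ) * (m s * (2 * Real.pi)) = 0 := by linarith
    simpa [hk0, hpi.ne'] using hz
  have := hm s
  rw [m0] at this
  linarith

/-- A symmetric table whose heights pi/k carry invariant graphs is a disc. -/
theorem symmetric_disc (h : Table γ θ L) {k : ℕ} (hk : 2 ≤ k) {c₀ : ℂ}
    (hsym : ∀ s, γ (s + L / k) - c₀ = exp ((2 * Real.pi / k : ℝ) * I) * (γ s - c₀))
    (hgr : ∀ s, ∃ f, InvariantGraph γ θ L f ∧ f s = Real.pi / k) :
    ∃ r, 0 < r ∧ range γ = Metric.sphere c₀ r := by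
  have hθ' := h.theta_symm hk hsym
  obtain ⟨hL, hp, hθ, hd, hdiff, hpos⟩ := id h
  have hpi := Real.pi_pos
  have hk2 : (2 : ℝ) ≤ k := by exact_mod_cast hk
  have hkp : (0 : ℝ) < k := by linarith
  have ha0 : 0 < L / k := by positivity
  have ha1 : L / k < L := by rw [div_lt_iff₀ hkp]; nlinarith
  set ω := exp ((2 * Real.pi / k : ℝ) * I)
  have hq0 : 0 < Real.pi / k := by positivity
  have hq1 : Real.pi / k < Real.pi := by rw [div_lt_iff₀ hkp]; nlinarith
  have hω : ω - 1 = exp ((Real.pi / k : ℝ) * I) * ((2 * Real.sin (Real.pi / k) : ℝ) * I) := by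
    have e : ω = exp ((Real.pi / k : ℝ) * I) * exp ((Real.pi / k : ℝ) * I) := by
      rw [← exp_add]; simp only [ω]; push_cast; ring_nf
    have sq := Real.sin_sq_add_cos_sq (Real.pi / k)
    rw [e]
    apply Complex.ext
    · simp only [sub_re, mul_re, mul_im, one_re, ofReal_re, ofReal_im, I_re, I_im,
        exp_ofReal_mul_I_re, exp_ofReal_mul_I_im]
      ring_nf
      ring_nf at sq
      linarith
    · simp only [sub_im, mul_re, mul_im, one_im, ofReal_re, ofReal_im, I_re, I_im,
        exp_ofReal_mul_I_re, exp_ofReal_mul_I_im]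
      ring
  have hchord : ∀ s, γ (s + L / k) - γ s = (ω - 1) * (γ s - c₀) := fun s => by
    linear_combination hsym s
  have hsin : 0 < Real.sin (Real.pi / k) := Real.sin_pos_of_pos_of_lt_pi hq0 hq1
  have hne : ∀ s, γ s - c₀ ≠ 0 := fun s e =>
    h.chord_ne (show s < s + L / k by linarith) (by linarith) (by rw [hchord, e, mul_zero])
  -- critical points of the radius
  have crit : ∀ s, ((γ s - c₀) * exp (-((θ s : ℝ) * I))).re = 0 →
      γ s - c₀ = -(I * (‖γ s - c₀‖ : ℂ)) * exp ((θ s : ℝ) * I) ∧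
      Step γ θ L s (Real.pi / k) (s + L / k) (Real.pi / k) := by
    intro s hs
    set z := γ s - c₀
    set w := z * exp (-((θ s : ℝ) * I))
    have hw : w = (w.im : ℂ) * I := by apply Complex.ext <;> simp [hs]
    have hz : z = (w.im : ℂ) * I * exp ((θ s : ℝ) * I) := by
      rw [← hw]; simp only [w]; rw [mul_assoc, ← exp_add]; simp
    have hc : γ (s + L / k) - γ s
        = ((-(2 * Real.sin (Real.pi / k) * w.im) : ℝ) : ℂ) * exp ((θ s + Real.pi / k : ℝ) * I) := by
      rw [hchord, hω]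
      change _ * z = _
      conv_lhs => rw [hz]
      push_cast
      rw [add_mul, exp_add]
      linear_combination (2 * Complex.sin ((Real.pi : ℂ) / k) * (w.im : ℂ)
        * cexp ((Real.pi : ℂ) / k * I) * cexp ((θ s : ℂ) * I)) * I_mul_I
    have p := h.chord_im_pos (show s < s + L / k by linarith) (by linarith)
    rw [hc, mul_assoc, exp_neg_mul, im_ofReal_mul, exp_ofReal_mul_I_im, add_sub_cancel_left] at p
    have wneg : w.im < 0 := by
      by_contra hcon
      push Not at hcon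
      have : 0 ≤ 2 * Real.sin (Real.pi / k) * w.im * Real.sin (Real.pi / k) := by positivity
      nlinarith
    have nz : ‖z‖ = -w.im := by
      rw [hz, norm_mul, norm_mul, norm_real, norm_I, norm_exp_ofReal_mul_I, mul_one, mul_one,
        Real.norm_of_nonpos wneg.le]
    refine ⟨?_, by linarith, by linarith, ⟨hq0, hq1⟩, ⟨hq0, hq1⟩, ?_, ?_⟩
    · rw [nz]; conv_lhs => rw [hz]
      push_cast; ring
    all_goals
      have nc : ‖γ (s + L / k) - γ s‖ = -(2 * Real.sin (Real.pi / k) * w.im) := by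
        rw [hc, norm_mul, norm_real, norm_exp_ofReal_mul_I, mul_one, Real.norm_of_nonneg]
        have : 0 < Real.sin (Real.pi / k) * -w.im := mul_pos hsin (neg_pos.2 wneg)
        linarith
      rw [nc]
    · exact hc
    · rw [hθ', show θ s + 2 * Real.pi / k - Real.pi / k = θ s + Real.pi / k by ring]; exact hc
  -- the squared radius
  set g : ℝ → ℝ := fun s => ‖γ s - c₀‖ ^ 2
  have hg : ∀ s, HasDerivAt g (2 * ((γ s - c₀) * exp (-((θ s : ℝ) * I))).re) s := by
    intro s
    convert ((hd s).sub_const c₀).norm_sq using 1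
    rw [Complex.inner, show exp (-((θ s : ℝ) * I)) = starRingEnd ℂ (exp ((θ s : ℝ) * I)) by
      rw [← exp_conj]; simp]
    simp [mul_re, mul_comm]
    ring
  have hgc : Continuous g := continuous_iff_continuousAt.2 fun x => (hg x).continuousAt
  have gper : Function.Periodic g L := fun s => by simp [g, hp]
  obtain ⟨s₁, -, h1⟩ := isCompact_Icc.exists_isMinOn (nonempty_Icc.2 hL.le) hgc.continuousOn
  obtain ⟨s₀, -, h0⟩ := isCompact_Icc.exists_isMaxOn (nonempty_Icc.2 hL.le) hgc.continuousOn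
  have g1 : ∀ s, g s₁ ≤ g s := fun s => by
    obtain ⟨y, hy, e⟩ := gper.exists_mem_Ico₀ hL s
    exact e ▸ h1 (Ico_subset_Icc_self hy)
  have g0 : ∀ s, g s ≤ g s₀ := fun s => by
    obtain ⟨y, hy, e⟩ := gper.exists_mem_Ico₀ hL s
    exact e ▸ h0 (Ico_subset_Icc_self hy)
  have critg : ∀ s, IsLocalExtr g s → ((γ s - c₀) * exp (-((θ s : ℝ) * I))).re = 0 := fun s hs => by
    have := hs.hasDerivAt_eq_zero (hg s)
    linarith
  -- translates of the two critical polygons
  have hnorm : ∀ s, ‖γ (s + L / k) - c₀‖ = ‖γ s - c₀‖ := fun s => by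
    rw [hsym s, norm_mul, norm_exp_ofReal_mul_I, one_mul]
  have chordlen : ∀ s, ‖γ (s + L / k) - γ s‖ = ‖ω - 1‖ * ‖γ s - c₀‖ := fun s => by
    rw [hchord, norm_mul]
  have rad : ∀ s (j : ℕ), ‖γ (s + j * (L / k)) - c₀‖ = ‖γ s - c₀‖ := by
    intro s j
    induction j with
    | zero => simp
    | succ j ih => rw [← ih, ← hnorm (s + j * (L / k))]; push_cast; ring_nf
  obtain ⟨f, hf, hfs⟩ := hgr s₁
  obtain ⟨u, c, A, huA, hule, hueq⟩ := h.calibration hf
  have step₁ : ∀ j : ℕ, Step γ θ L (s₁ + j * (L / k)) (Real.pi / k)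
      (s₁ + j * (L / k) + L / k) (Real.pi / k) := fun j =>
    (crit _ (critg _ (Or.inl (Eventually.of_forall fun s =>
      (show g (s₁ + j * (L / k)) = g s₁ by simp [g, rad]) ▸ g1 s)))).2
  have fval : ∀ j : ℕ, f (s₁ + j * (L / k)) = Real.pi / k := by
    intro j
    induction j with
    | zero => simpa using hfs
    | succ j ih =>
      rw [show s₁ + ((j + 1 : ℕ) : ℝ) * (L / k) = s₁ + j * (L / k) + L / k by push_cast; ring]
      exact ((hf.2.2.2 _ _ _ _ (step₁ j)).1 ih.symm).symm
  have tele : ∀ s, ∑ j ∈ Finset.range k, (u (s + j * (L / k) + L / k) - u (s + j * (L / k))) = A := by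
    intro s
    have := Finset.sum_range_sub (fun j : ℕ => u (s + j * (L / k))) k
    simp only [Nat.cast_zero, zero_mul, add_zero] at this
    rw [show (k : ℝ) * (L / k) = L by field_simp, huA] at this
    rw [show A = u s + A - u s by ring, ← this]
    refine Finset.sum_congr rfl fun j _ => ?_
    push_cast; ring_nf
  have sum₁ : (k : ℝ) * (‖ω - 1‖ * ‖γ s₁ - c₀‖) = A + k * c := by
    rw [← tele s₁]
    calc (k : ℝ) * (‖ω - 1‖ * ‖γ s₁ - c₀‖)
        = ∑ j ∈ Finset.range k, ‖γ (s₁ + j * (L / k) + L / k) - γ (s₁ + j * (L / k))‖ := by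
          simp [chordlen, rad]
      _ = ∑ j ∈ Finset.range k, (u (s₁ + j * (L / k) + L / k) - u (s₁ + j * (L / k)) + c) := by
          refine Finset.sum_congr rfl fun j _ => ?_
          exact hueq _ _ (Real.pi / k) ((fval j).symm ▸ step₁ j)
      _ = _ := by rw [Finset.sum_add_distrib]; simp
  have sum₀ : (k : ℝ) * (‖ω - 1‖ * ‖γ s₀ - c₀‖) ≤ A + k * c := by
    rw [← tele s₀]
    calc (k : ℝ) * (‖ω - 1‖ * ‖γ s₀ - c₀‖)
        = ∑ j ∈ Finset.range k, ‖γ (s₀ + j * (L / k) + L / k) - γ (s₀ + j * (L / k))‖ := by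
          simp [chordlen, rad]
      _ ≤ ∑ j ∈ Finset.range k, (u (s₀ + j * (L / k) + L / k) - u (s₀ + j * (L / k)) + c) :=
          Finset.sum_le_sum fun j _ => hule _ _ (by linarith) (by linarith)
      _ = _ := by rw [Finset.sum_add_distrib]; simp
  have hω0 : 0 < ‖ω - 1‖ := by
    rw [hω, norm_mul, norm_mul, norm_exp_ofReal_mul_I, norm_real, norm_I, Real.norm_eq_abs,
      abs_of_pos (by linarith : 0 < 2 * Real.sin (Real.pi / k))]
    linarith
  have le01 : ‖γ s₀ - c₀‖ ≤ ‖γ s₁ - c₀‖ :=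
    le_of_mul_le_mul_left (le_of_mul_le_mul_left (sum₀.trans sum₁.ge) hkp) hω0
  set r := ‖γ s₁ - c₀‖
  have hr : 0 < r := norm_pos_iff.2 (hne s₁)
  have hconst : ∀ s, ‖γ s - c₀‖ = r := fun s => by
    refine le_antisymm (le_trans ?_ le01) ?_
    · exact pow_le_pow_iff_left₀ (norm_nonneg _) (norm_nonneg _) two_ne_zero |>.1 (g0 s)
    · exact pow_le_pow_iff_left₀ (norm_nonneg _) (norm_nonneg _) two_ne_zero |>.1 (g1 s)
  have rep : ∀ s, γ s - c₀ = -(I * (r : ℂ)) * exp ((θ s : ℝ) * I) := fun s => by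
    have := (crit s (critg s (Or.inl (Eventually.of_forall fun x =>
      le_of_eq (by simp [g, hconst]))))).1
    rwa [hconst] at this
  refine ⟨r, hr, Subset.antisymm ?_ ?_⟩
  · rintro _ ⟨s, rfl⟩
    simp [hconst]
  · intro p hpp
    rw [Metric.mem_sphere, dist_eq] at hpp
    set q := I * (p - c₀) / (r : ℂ)
    have hq : ‖q‖ = 1 := by simp [q, hpp, abs_of_pos hr, hr.ne']
    obtain ⟨φ, hφ⟩ := (norm_eq_one_iff q).1 hq
    obtain ⟨φ', hφ', e⟩ : ∃ φ' ∈ Icc (θ 0) (θ L), exp ((φ' : ℝ) * I) = exp ((φ : ℝ) * I) := by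
      have per : Function.Periodic (fun x : ℝ => exp ((x : ℝ) * I)) (2 * Real.pi) := fun x => by
        push_cast; rw [add_mul, exp_add, exp_two_pi_mul_I, mul_one]
      obtain ⟨φ', hm, e⟩ := per.exists_mem_Ico (by linarith) φ (θ 0)
      exact ⟨φ', ⟨hm.1, by have := hθ 0; rw [zero_add] at this; linarith [hm.2]⟩, e.symm⟩
    obtain ⟨s, -, hs⟩ := intermediate_value_Icc hL.le hdiff.continuous.continuousOn hφ'
    refine ⟨s, ?_⟩
    have hrC : (r : ℂ) ≠ 0 := by exact_mod_cast hr.ne'
    have := rep s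
    rw [hs, e, hφ] at this
    simp only [q] at this
    field_simp at this
    rw [I_sq] at this
    linear_combination this

end Vale.Agent.P097
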